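import Vale.Agent.Lib.P058.Quad.Final
import Vale.Agent.Lib.P058.Quad.NotSub
import Vale.Agent.Lib.P058.Quad.Sphere
import Vale.Agent.Lib.P058.UnivRamsey

/-! # P058: the Leader-Russell-Walters conjecture is false -/

namespace Vale.Agent.Results.P058.AAAAAAA_lrw

open Vale.Agent.Lib.P058 Vale.Agent.Lib.P058.Quad

/-- (1) Every subtransitive set is Ramsey. (2) The four points `quad` of the plane, with
`w = 1 + √2`: `(√w * √2, w)`, `(√w * w, w)`, `(0, -1)`, `(0, 0)`, form a finite set on a circle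
which is Ramsey and not subtransitive. (3) So Ramsey does not imply subtransitive: the conjecture of
Leader, Russell and Walters is false. -/
theorem result :
    (∀ (ι : Type) [Fintype ι] (A : Set (EuclideanSpace ℝ ι)), IsSubtransitive A → IsRamsey A) ∧
    (quad.Finite ∧ quad = {!₂[√w * √2, w], !₂[√w * w, w], !₂[0, -1], !₂[0, 0]} ∧
      (∃ (z : EuclideanSpace ℝ (Fin 2)) (ρ : ℝ), ∀ x ∈ quad, dist x z = ρ) ∧
      IsRamsey quad ∧ ¬ IsSubtransitive quad) ∧
    ¬ (∀ A : Set (EuclideanSpace ℝ (Fin 2)), A.Finite → IsRamsey A → IsSubtransitive A) := by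
  refine ⟨fun _ _ _ hA => isRamsey_of_subtransitive hA, ⟨quad_finite, ?_, quad_spherical,
    quad_isRamsey, not_isSubtransitive⟩, fun h => not_isSubtransitive (h _ quad_finite quad_isRamsey)⟩
  ext x
  simp only [quad, Set.mem_range, Set.mem_insert_iff, Set.mem_singleton_iff]
  constructor
  · rintro ⟨s, rfl⟩
    fin_cases s <;> simp [pt, cI, cII]
  · rintro (rfl | rfl | rfl | rfl)
    · exact ⟨0, by simp [pt, cI, cII]⟩
    · exact ⟨1, by simp [pt, cI, cII]⟩
    · exact ⟨2, by simp [pt, cI, cII]⟩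
    · exact ⟨3, by simp [pt, cI, cII]⟩

end Vale.Agent.Results.P058.AAAAAAA_lrw
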