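import Vale.Agent.Lib.P058.NonRamsey.Signed
import Vale.Agent.Lib.P058.UnivRamsey

/-! # P058: subtransitive ⇒ Ramsey ⇒ signed-subtransitive -/

namespace Vale.Agent.Results.P058.AAAAAA_signed

open Vale.Agent.Lib.P058 Vale.Agent.Lib.P058.NonRamsey

/-- (1) Every subtransitive set is Ramsey.
(2) Every Ramsey set, given as a finite family `a` affinely spanning `ℝ^n`, is signed-subtransitive:
it has a finite family of affine functionals with signed rational multiplicities whose signed multiset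
of values at `a i` does not depend on `i` and whose second moment `∑ ε t tᵀ` is the identity.
(3) Certificate form: if `ψ i : ℝ → ℝ` have `∑ ψ i = 0` pointwise, `Ψ` is additive on matrices,
`∑ ψ i (p + ⟨a i, t⟩) = Ψ (t tᵀ)` for all `p, t` and `Ψ 1 ≠ 0`, then `a` is not Ramsey. -/
theorem result :
    (∀ (ι : Type) [Fintype ι] (A : Set (EuclideanSpace ℝ ι)), IsSubtransitive A → IsRamsey A) ∧
    (∀ (n : ℕ) (I : Type) [Fintype I] [DecidableEq I] (a : I → EuclideanSpace ℝ (Fin n)) (i₀ : I),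
      Submodule.span ℝ (Set.range fun i => a i - a i₀) = ⊤ →
      IsRamsey (Set.range a) → IsSignedSubtransitive a) ∧
    (∀ (n : ℕ) (I : Type) [Fintype I] (a : I → EuclideanSpace ℝ (Fin n)) (i₀ : I)
      (_ : Submodule.span ℝ (Set.range fun i => a i - a i₀) = ⊤)
      (ψ : I → ℝ → ℝ) (Ψ : Matrix (Fin n) (Fin n) ℝ →+ ℝ)
      (_ : ∀ x, ∑ i, ψ i x = 0)
      (_ : ∀ (p : ℝ) (t : Fin n → ℝ),
        ∑ i, ψ i (p + ∑ j, a i j * t j) = Ψ (Matrix.vecMulVec t t))
      (_ : Ψ 1 ≠ 0), ¬ IsRamsey (Set.range a)) :=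
  ⟨fun _ _ _ hA => isRamsey_of_subtransitive hA,
   fun _ _ _ _ a i₀ hs hR => isSignedSubtransitive_of_isRamsey a i₀ hs hR,
   fun _ _ _ a i₀ hs ψ Ψ h0 h1 hC => not_isRamsey_of_certificate a i₀ hs ψ Ψ h0 h1 hC⟩

end Vale.Agent.Results.P058.AAAAAA_signed
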