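import Vale.Agent.Lib.P058.UnivRamsey
import Vale.Agent.Lib.P058.PowerRamsey
import Vale.Agent.Lib.P058.RatDep
import Vale.Agent.Lib.P058.NonRamsey.Octagon
import Vale.Agent.Lib.P058.NonRamsey.Family
import Vale.Agent.Lib.P058.NonRamsey.PlaneHept
import Vale.Agent.Lib.P058.NotSub
import Vale.Agent.Lib.P058.NonRamsey.Generic7
import Vale.Agent.Lib.P058.RatDepConv

/-! # P058: subtransitive sets are Ramsey, spherical sets need not be -/

namespace Vale.Agent.Results.P058.AAAAA_all

open Vale.Agent.Lib.P058 Vale.Agent.Lib.P058.NonRamsey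

theorem exists_data : ∃ c s : ℝ, c ^ 2 + s ^ 2 = 1 ∧ Transcendental ℚ c := by
  have h : ¬ (Set.Ioo (0 : ℝ) 1).Countable := by
    rw [Cardinal.Real.Ioo_countable_iff]
    norm_num
  have h2 : ∃ c ∈ Set.Ioo (0 : ℝ) 1, Transcendental ℚ c := by
    by_contra hc
    push Not at hc
    refine h ((Algebraic.countable ℚ ℝ).mono ?_)
    intro c hc1
    have := hc c hc1
    simpa [Transcendental] using this
  obtain ⟨c, hc, htr⟩ := h2
  refine ⟨c, Real.sqrt (1 - c ^ 2), ?_, htr⟩
  rw [Real.sq_sqrt]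
  · ring
  · have h1 : c ^ 2 ≤ 1 := by nlinarith [hc.1, hc.2]
    linarith

/-- (1) Every subtransitive set is Ramsey.
(2) If `c ^ 2 + s ^ 2 = 1` and `c` is transcendental, which happens, then the eight points
`(±1, 0), (0, ±1), (±c, ±s)` of the unit circle form a set which is neither Ramsey nor subtransitive.
The same holds for seven explicit points of the unit circle, for each transcendental `u` in `(0, 1)`,
and for any seven points of the unit circle whose first coordinates are algebraically independent.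
(3) A necessary condition for Ramsey sets: if a finite family `a` spans its space affinely, `d` is a
derivation of `ℝ` over `ℚ` and real weights `w` have sum zero, annihilate all polynomials of degree
at most two on the family, annihilate `d a`, make `∑ w (d a) aᵀ` symmetric and have
`∑ w |d a| ^ 2 ≠ 0`, then the family is not Ramsey.
(4) A finite set `A` is subtransitive if and only if there is one finite set `L` of a Euclidean space
such that for every number `r ≥ 2` of colours there is `N` such that every `r`-colouring of `L ^ N`,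
with the Euclidean metric of the product, is constant on a congruent copy of `A`; and `A` is Ramsey
if and only if for every `r ≥ 2` there are such `L` and `N`, with `L` depending on `r`.
(5) A finite set on a sphere whose points are rational affine combinations of an affinely independent
family with arbitrary real coordinates is subtransitive and Ramsey. For any finite set of rational
affine combinations of linearly independent vectors added to a point: Ramsey iff subtransitive iff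
on a sphere.
(6) The coefficients of an affine relation among the points of a subtransitive set, not all equal, are
algebraically dependent over `ℚ`; a quadrilateral whose diagonals cut each other in ratios `p`, `q`
algebraically independent over `ℚ` is not subtransitive. -/
theorem result :
    (∀ (ι : Type) [Fintype ι] (A : Set (EuclideanSpace ℝ ι)), IsSubtransitive A → IsRamsey A) ∧
    ((∃ c s : ℝ, c ^ 2 + s ^ 2 = 1 ∧ Transcendental ℚ c) ∧
      ∀ c s : ℝ, c ^ 2 + s ^ 2 = 1 → Transcendental ℚ c →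
        (octagon c s).Finite ∧ (∀ x ∈ octagon c s, ‖x‖ = 1) ∧ ¬ IsRamsey (octagon c s) ∧
          ¬ IsSubtransitive (octagon c s)) ∧
    (∀ u : ℝ, Transcendental ℚ u → 0 < u → u < 1 →
      ¬ IsRamsey ({!₂[1, 0], !₂[0, 1], !₂[0, -1], !₂[u, √(1 - u ^ 2)], !₂[u, -√(1 - u ^ 2)],
        !₂[2 * u / (1 + u), √(1 - (2 * u / (1 + u)) ^ 2)],
        !₂[2 * u / (1 + u), -√(1 - (2 * u / (1 + u)) ^ 2)]} :
        Set (EuclideanSpace ℝ (Fin 2))) ∧
      ¬ IsSubtransitive ({!₂[1, 0], !₂[0, 1], !₂[0, -1], !₂[u, √(1 - u ^ 2)], !₂[u, -√(1 - u ^ 2)],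
        !₂[2 * u / (1 + u), √(1 - (2 * u / (1 + u)) ^ 2)],
        !₂[2 * u / (1 + u), -√(1 - (2 * u / (1 + u)) ^ 2)]} :
        Set (EuclideanSpace ℝ (Fin 2)))) ∧
    (∀ c s : Fin 7 → ℝ, (∀ i, c i ^ 2 + s i ^ 2 = 1) → AlgebraicIndependent ℚ c →
      ¬ IsRamsey (Set.range fun i => (!₂[c i, s i] : EuclideanSpace ℝ (Fin 2))) ∧
      ¬ IsSubtransitive (Set.range fun i => (!₂[c i, s i] : EuclideanSpace ℝ (Fin 2)))) ∧
    (∀ (n : ℕ) (I : Type) [Fintype I] (a : I → EuclideanSpace ℝ (Fin n)) (i₀ : I),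
      Submodule.span ℝ (Set.range fun i => a i - a i₀) = ⊤ →
      ∀ (d : Derivation ℚ ℝ ℝ) (w : I → ℝ),
      ∑ i, w i = 0 → (∀ j, ∑ i, w i * a i j = 0) →
      (∀ j k, ∑ i, w i * (a i j * a i k) = 0) →
      (∀ j, ∑ i, w i * d (a i j) = 0) →
      (∀ j k, ∑ i, w i * (d (a i j) * a i k) = ∑ i, w i * (d (a i k) * a i j)) →
      ∑ i, w i * ∑ j, (d (a i j)) ^ 2 ≠ 0 → ¬ IsRamsey (Set.range a)) ∧
    (∀ (ι : Type) [Fintype ι] (A : Set (EuclideanSpace ℝ ι)), A.Finite →
      (IsSubtransitive A ↔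
        ∃ (m : ℕ) (L : Set (EuclideanSpace ℝ (Fin m))), L.Finite ∧
          ∀ r : ℕ, 2 ≤ r → ∃ N : ℕ, PowerArrows A L r N) ∧
      (IsRamsey A ↔
        ∀ r : ℕ, 2 ≤ r → ∃ (m : ℕ) (L : Set (EuclideanSpace ℝ (Fin m))), L.Finite ∧
          ∃ N : ℕ, PowerArrows A L r N)) ∧
    (∀ (m n : ℕ) (X : Set (EuclideanSpace ℝ (Fin m))), X.Finite →
      ∀ b : Fin n → EuclideanSpace ℝ (Fin m), AffineIndependent ℝ b →
      (∀ x ∈ X, ∃ a : Fin n → ℚ, ∑ j, a j = 1 ∧ x = ∑ j, (a j : ℝ) • b j) →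
      (∃ (z : EuclideanSpace ℝ (Fin m)) (r : ℝ), ∀ x ∈ X, dist x z = r) →
      IsSubtransitive X ∧ IsRamsey X) ∧
    (∀ (ι : Type) [Fintype ι] (d m : ℕ) (r : ι → Fin d → ℚ)
      (f : Fin d → EuclideanSpace ℝ (Fin m)) (x0 : EuclideanSpace ℝ (Fin m)),
      LinearIndependent ℝ f →
      (IsRamsey (Set.range fun i => x0 + ∑ p, (r i p : ℝ) • f p) ↔
        IsSubtransitive (Set.range fun i => x0 + ∑ p, (r i p : ℝ) • f p)) ∧
      (IsSubtransitive (Set.range fun i => x0 + ∑ p, (r i p : ℝ) • f p) ↔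
        ∃ (z : EuclideanSpace ℝ (Fin m)) (ρ : ℝ),
          ∀ i, dist (x0 + ∑ p, (r i p : ℝ) • f p) z = ρ)) ∧
    (∀ (m n : ℕ) (x : Fin n → EuclideanSpace ℝ (Fin m)) (x0 : EuclideanSpace ℝ (Fin m))
      (w : Fin n → ℝ), ∑ i, w i • (x i - x0) = 0 → (∃ i, x i ≠ x0) →
      IsSubtransitive (insert x0 (Set.range x)) → ¬ AlgebraicIndependent ℚ w) ∧
    (∀ (m : ℕ) (A B C D : EuclideanSpace ℝ (Fin m)) (p q : ℝ),
      (1 - p) • A + p • C = (1 - q) • B + q • D → A ≠ D →
      AlgebraicIndependent ℚ ![p, q] → ¬ IsSubtransitive ({A, B, C, D} : Set _)) := by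
  have h1 : ∀ (ι : Type) [Fintype ι] (A : Set (EuclideanSpace ℝ ι)),
      IsSubtransitive A → IsRamsey A := fun _ _ _ hA => isRamsey_of_subtransitive hA
  refine ⟨h1, ?_, ?_, ?_, ?_, ?_, ?_, ?_, ?_, ?_⟩
  · refine ⟨exists_data, fun c s hcs htr => ?_⟩
    obtain ⟨d, hd⟩ := Fam12.exists_derivation_ne htr
    have hnot := not_isRamsey_octagon c s hcs d hd
    exact ⟨Set.finite_range _, octagon_norm c s hcs, hnot, fun hS => hnot (h1 _ _ hS)⟩
  · intro u hu h0 h01
    have hnot := Plane.not_isRamsey_heptagon_of_transcendental hu h0 h01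
    exact ⟨hnot, fun hS => hnot (h1 _ _ hS)⟩
  · intro c s hcs hc
    have hnot : ¬ IsRamsey (Set.range fun i => (!₂[c i, s i] : EuclideanSpace ℝ (Fin 2))) :=
      Gen7.not_isRamsey_generic7 c s hcs hc
    exact ⟨hnot, fun hS => hnot (h1 _ _ hS)⟩
  · intro n I _ a i₀ hspan d w h1' h2 h3 h4 h5 hC
    exact Vale.Agent.Lib.P058.NonRamsey.not_isRamsey_of_derivation a i₀ hspan d w h1' h2 h3 h4 h5 hC
  · intro ι _ A hA
    exact ⟨(isPowerRamsey_iff hA).symm, (ramsey_quantifiers hA).1⟩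
  · intro m n X hfin b hb hX hsph
    obtain ⟨N, Y, hY, htr, f, hf, hd⟩ := Vale.Agent.Lib.P058.RatDep.ratdep_core X hfin b hb hX hsph
    have hS : IsSubtransitive X := ⟨N, Y, f, ⟨hY, htr⟩, hf, hd⟩
    exact ⟨hS, h1 _ _ hS⟩
  · intro ι _ d m r f x0 hf
    exact ⟨⟨fun hR => (RatAff.main r f hf x0 (RatAff.spherical_of_isRamsey r f hf x0 hR)).1,
        fun hS => isRamsey_of_subtransitive hS⟩,
      ⟨fun hS => RatAff.spherical_of_isRamsey r f hf x0 (isRamsey_of_subtransitive hS),
        fun hs => (RatAff.main r f hf x0 hs).1⟩⟩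
  · intro m n x x0 w hdep hne hsub
    obtain ⟨N, Y, f, ⟨hY, htr⟩, hfY, hfd⟩ := hsub
    exact Vale.Agent.Lib.P058.NotSub.not_algInd_w x x0 w hdep hne Y hY htr f hfY hfd
  · intro m A B C D p q hPQ hAD hind hsub
    obtain ⟨N, Y, f, ⟨hY, htr⟩, hfY, hfd⟩ := hsub
    exact Vale.Agent.Lib.P058.NotSub.quad_not A B C D p q hPQ hAD hind Y hY htr f hfY hfd

end Vale.Agent.Results.P058.AAAAA_all
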