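import Vale.Agent.Lib.P058.NonRamsey.Octagon
import Vale.Agent.Lib.P058.UnivRamsey

/-! # P058: a spherical set which is not Ramsey, and subtransitive sets are Ramsey -/

namespace Vale.Agent.Results.P058.AAAA_octagon

open Vale.Agent.Lib.P058 Vale.Agent.Lib.P058.NonRamsey

/-- (1) Every subtransitive set is Ramsey.
(2) Criterion: let `a` be a finite family affinely spanning `ℝ^n`, `d` a derivation of `ℝ` over `ℚ`
applied to coordinates, `w` real weights with `∑ w = 0`, `∑ w a = 0`, `∑ w a aᵀ = 0`, `∑ w d a = 0`,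
`∑ w (d a) aᵀ` symmetric and `∑ w |d a|² ≠ 0`. Then the set of the points of `a` is not Ramsey.
(3) If `c² + s² = 1` and `d c ≠ 0` for a derivation `d`, then the eight points `(±1,0)`, `(0,±1)`,
`(±c,±s)` of the unit circle form a set which is not Ramsey.
(4) There is a finite subset of the unit circle of the plane which is not Ramsey. -/
theorem result :
    (∀ (ι : Type) [Fintype ι] (A : Set (EuclideanSpace ℝ ι)), IsSubtransitive A → IsRamsey A) ∧
    (∀ (n : ℕ) (I : Type) [Fintype I] (a : I → EuclideanSpace ℝ (Fin n)) (i₀ : I)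
      (_ : Submodule.span ℝ (Set.range fun i => a i - a i₀) = ⊤)
      (d : Derivation ℚ ℝ ℝ) (w : I → ℝ)
      (_ : ∑ i, w i = 0) (_ : ∀ j, ∑ i, w i * a i j = 0)
      (_ : ∀ j k, ∑ i, w i * (a i j * a i k) = 0)
      (_ : ∀ j, ∑ i, w i * d (a i j) = 0)
      (_ : ∀ j k, ∑ i, w i * (d (a i j) * a i k) = ∑ i, w i * (d (a i k) * a i j))
      (_ : ∑ i, w i * ∑ j, (d (a i j)) ^ 2 ≠ 0), ¬ IsRamsey (Set.range a)) ∧
    (∀ (c s : ℝ) (d : Derivation ℚ ℝ ℝ), c ^ 2 + s ^ 2 = 1 → d c ≠ 0 →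
      (∀ x ∈ octagon c s, ‖x‖ = 1) ∧ ¬ IsRamsey (octagon c s)) ∧
    (∃ A : Set (EuclideanSpace ℝ (Fin 2)), A.Finite ∧ (∀ x ∈ A, ‖x‖ = 1) ∧ ¬ IsRamsey A) :=
  ⟨fun _ _ _ hA => isRamsey_of_subtransitive hA,
   fun _ _ _ a i₀ hs d w h1 h2 h3 h4 h5 hC =>
    not_isRamsey_of_derivation a i₀ hs d w h1 h2 h3 h4 h5 hC,
   fun c s d hcs hd => ⟨octagon_norm c s hcs, not_isRamsey_octagon c s hcs d hd⟩,
   exists_spherical_not_ramsey⟩

end Vale.Agent.Results.P058.AAAA_octagon
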