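import Vale.Agent.Lib.P058.NonRamsey.Trans

/-! # P058: a finite spherical set that is not Ramsey, and a family where the arithmetic decides -/

namespace Vale.Agent.Results.P058.AAAA_spherical

open Vale.Agent.Lib.P058 Vale.Agent.Lib.P058.NonRamsey.Core Vale.Agent.Lib.P058.NonRamsey.Trans

/-- For `c ^ 2 + s ^ 2 = 1` let `dodeca c s` be the finite set of the twelve points
`(±1, 0), (0, ±1), (±c, ±s), (±s, ±c)` of the unit circle of the plane. Then:
(1) some `dodeca c s` is not Ramsey (so a finite spherical set need not be Ramsey);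
(2) `dodeca c s` is not Ramsey whenever `c` is transcendental over `ℚ`;
(3) `dodeca c s` is Ramsey whenever `c` and `s` are rational. -/
theorem result :
    (∃ c s : ℝ, c ^ 2 + s ^ 2 = 1 ∧ (dodeca c s).Finite ∧ (dodeca c s).Nonempty ∧
      (∀ x ∈ dodeca c s, dist x (pt 0 0) = 1) ∧ ¬ IsRamsey (dodeca c s)) ∧
    (∀ c s : ℝ, c ^ 2 + s ^ 2 = 1 → Transcendental ℚ c →
      (dodeca c s).Finite ∧ (∀ x ∈ dodeca c s, dist x (pt 0 0) = 1) ∧ ¬ IsRamsey (dodeca c s)) ∧
    (∀ c s : ℚ, (c : ℝ) ^ 2 + (s : ℝ) ^ 2 = 1 → IsRamsey (dodeca (c : ℝ) (s : ℝ))) := by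
  refine ⟨?_, ?_, isRamsey_of_rational⟩
  · obtain ⟨c, s, hcs, h⟩ := exists_spherical_not_ramsey
    exact ⟨c, s, hcs, by unfold dodeca; exact Set.toFinite _, ⟨pt 1 0, by simp [dodeca]⟩,
      dodeca_sphere c s hcs, h⟩
  · intro c s hcs hc
    exact ⟨by unfold dodeca; exact Set.toFinite _, dodeca_sphere c s hcs,
      not_isRamsey_of_transcendental c s hcs hc⟩

end Vale.Agent.Results.P058.AAAA_spherical
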