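import Vale.Agent.Lib.P058.RatDep
import Vale.Agent.Lib.P058.NotSub

namespace Vale.Agent.Results.P058.AAA_dichotomy

/-- A subset of a Euclidean space is transitive if the isometries of the space mapping the set
onto itself act transitively on it. -/
def IsTransitiveSet {N : ℕ} (Y : Set (EuclideanSpace ℝ (Fin N))) : Prop :=
  ∀ u ∈ Y, ∀ v ∈ Y, ∃ g : EuclideanSpace ℝ (Fin N) ≃ᵢ EuclideanSpace ℝ (Fin N),
    g '' Y = Y ∧ g u = v

/-- A subset of a Euclidean space is subtransitive if it is congruent to a subset of a finite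
transitive set of some Euclidean space. -/
def Subtransitive {m : ℕ} (X : Set (EuclideanSpace ℝ (Fin m))) : Prop :=
  ∃ (N : ℕ) (Y : Set (EuclideanSpace ℝ (Fin N))), Y.Finite ∧ IsTransitiveSet Y ∧
    ∃ f : EuclideanSpace ℝ (Fin m) → EuclideanSpace ℝ (Fin N), (∀ x ∈ X, f x ∈ Y) ∧
      ∀ x ∈ X, ∀ y ∈ X, dist (f x) (f y) = dist x y

/-- (1) A finite set on a sphere whose points are rational affine combinations of an affinely
independent family is subtransitive. (2) If points, not all equal, form a subtransitive set, the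
coefficients of any affine relation among them are algebraically dependent over the rationals.
(3) A quadrilateral whose diagonals cut each other in ratios `p`, `q` algebraically independent
over the rationals is not subtransitive. -/
theorem result :
    (∀ (m n : ℕ) (X : Set (EuclideanSpace ℝ (Fin m))), X.Finite →
      ∀ b : Fin n → EuclideanSpace ℝ (Fin m), AffineIndependent ℝ b →
      (∀ x ∈ X, ∃ a : Fin n → ℚ, ∑ j, a j = 1 ∧ x = ∑ j, (a j : ℝ) • b j) →
      (∃ (z : EuclideanSpace ℝ (Fin m)) (r : ℝ), ∀ x ∈ X, dist x z = r) →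
      Subtransitive X) ∧
    (∀ (m n : ℕ) (x : Fin n → EuclideanSpace ℝ (Fin m)) (x0 : EuclideanSpace ℝ (Fin m))
      (w : Fin n → ℝ), ∑ i, w i • (x i - x0) = 0 → (∃ i, x i ≠ x0) →
      Subtransitive (insert x0 (Set.range x)) → ¬ AlgebraicIndependent ℚ w) ∧
    (∀ (m : ℕ) (A B C D : EuclideanSpace ℝ (Fin m)) (p q : ℝ),
      (1 - p) • A + p • C = (1 - q) • B + q • D → A ≠ D →
      AlgebraicIndependent ℚ ![p, q] → ¬ Subtransitive ({A, B, C, D} : Set _)) := by
  refine ⟨fun m n X hfin b hb hX hsph => ?_, fun m n x x0 w hdep hne hsub => ?_,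
    fun m A B C D p q hPQ hAD hind hsub => ?_⟩
  · exact Vale.Agent.Lib.P058.RatDep.ratdep_core X hfin b hb hX hsph
  · obtain ⟨N, Y, hY, htr, f, hfY, hfd⟩ := hsub
    exact Vale.Agent.Lib.P058.NotSub.not_algInd_w x x0 w hdep hne Y hY htr f hfY hfd
  · obtain ⟨N, Y, hY, htr, f, hfY, hfd⟩ := hsub
    exact Vale.Agent.Lib.P058.NotSub.quad_not A B C D p q hPQ hAD hind Y hY htr f hfY hfd

end Vale.Agent.Results.P058.AAA_dichotomy
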