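import Vale.Agent.Lib.P058.PowerRamsey

/-! # P058: subtransitive and Ramsey as an order of quantifiers -/

namespace Vale.Agent.Results.P058.AAA_power

open Vale.Agent.Lib.P058

/-- For a finite set `A` of a Euclidean space:
(1) `A` is subtransitive if and only if there is ONE finite set `L` of a Euclidean space such that
for every number `r ≥ 2` of colours there is `N` such that every `r`-colouring of the power `L ^ N`,
with the Euclidean metric of the product, is constant on a congruent copy of `A`;
(2) `A` is Ramsey if and only if for every number `r ≥ 2` of colours there are a finite set `L` of a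
Euclidean space and `N` such that every `r`-colouring of `L ^ N` is constant on a congruent copy of
`A`. -/
theorem result {ι : Type} [Fintype ι] (A : Set (EuclideanSpace ℝ ι)) (hA : A.Finite) :
    (IsSubtransitive A ↔
      ∃ (m : ℕ) (L : Set (EuclideanSpace ℝ (Fin m))), L.Finite ∧
        ∀ r : ℕ, 2 ≤ r → ∃ N : ℕ, PowerArrows A L r N) ∧
    (IsRamsey A ↔
      ∀ r : ℕ, 2 ≤ r → ∃ (m : ℕ) (L : Set (EuclideanSpace ℝ (Fin m))), L.Finite ∧
        ∃ N : ℕ, PowerArrows A L r N) :=
  ⟨(isPowerRamsey_iff hA).symm, (ramsey_quantifiers hA).1⟩

end Vale.Agent.Results.P058.AAA_power
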