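import Vale.Agent.Lib.P058.RatDepConv

/-! # P058: the conjecture on sets with a rational affine structure -/

namespace Vale.Agent.Results.P058.AAA_ratdep

open Vale.Agent.Lib.P058

/-- Every subtransitive set is Ramsey. Moreover let `f₁, …, f_d` be linearly independent vectors of
`ℝ^m`, let `x0` be a point and let `x i = x0 + ∑ p, r i p • f p` for finitely many rational vectors
`r i`. Then the set of the `x i` is Ramsey if and only if it is subtransitive, if and only if all
`x i` lie on a sphere. -/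
theorem result :
    (∀ (m : ℕ) (A : Set (EuclideanSpace ℝ (Fin m))), IsSubtransitive A → IsRamsey A) ∧
    (∀ (ι : Type) [Fintype ι] (d m : ℕ) (r : ι → Fin d → ℚ)
      (f : Fin d → EuclideanSpace ℝ (Fin m)) (x0 : EuclideanSpace ℝ (Fin m)),
      LinearIndependent ℝ f →
      (IsRamsey (Set.range fun i => x0 + ∑ p, (r i p : ℝ) • f p) ↔
        IsSubtransitive (Set.range fun i => x0 + ∑ p, (r i p : ℝ) • f p)) ∧
      (IsSubtransitive (Set.range fun i => x0 + ∑ p, (r i p : ℝ) • f p) ↔
        ∃ (z : EuclideanSpace ℝ (Fin m)) (ρ : ℝ),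
          ∀ i, dist (x0 + ∑ p, (r i p : ℝ) • f p) z = ρ)) :=
  ⟨fun _ _ hA => isRamsey_of_subtransitive hA,
   fun _ _ _ _ r f x0 hf =>
    ⟨⟨fun hR => (RatAff.main r f hf x0 (RatAff.spherical_of_isRamsey r f hf x0 hR)).1,
      fun hS => isRamsey_of_subtransitive hS⟩,
     ⟨fun hS => RatAff.spherical_of_isRamsey r f hf x0 (isRamsey_of_subtransitive hS),
      fun hs => (RatAff.main r f hf x0 hs).1⟩⟩⟩

end Vale.Agent.Results.P058.AAA_ratdep
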