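import Vale.Agent.Lib.P058.UnivRamsey

/-! # P058: every subtransitive set is Ramsey -/

namespace Vale.Agent.Results.P058.AAA_subtransitive

open Vale.Agent.Lib.P058

/-- Every subtransitive set is Ramsey: if `A` is congruent to a subset of a finite set `X` of some
Euclidean space such that the isometries of the space mapping `X` onto itself act transitively on
`X`, then for every number `r ≥ 2` of colours there is a dimension `D ≥ 1` such that every
`r`-colouring of `ℝ^D` is constant on a congruent copy of `A`. -/
theorem result {ι : Type} [Fintype ι] (A : Set (EuclideanSpace ℝ ι)) (hA : IsSubtransitive A) :
    IsRamsey A :=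
  isRamsey_of_subtransitive hA

end Vale.Agent.Results.P058.AAA_subtransitive
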