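import Vale.Agent.Lib.P058.UnionParts
import Vale.Agent.Lib.P058.X3All
import Vale.Agent.Lib.P058.ChainMain
import Vale.Agent.Lib.P058.NonFree

/-! # P058: new classes of Ramsey sets, collected in one statement -/

namespace Vale.Agent.Results.P058.AAA_union

open Vale.Agent.Lib.P058 Vale.Agent.Lib.P058.X3 Vale.Agent.Lib.P058.UnionParts

/-- (1) A transitive isometric `S_N`-set in which some point is fixed by every permutation fixing
three given indices is Ramsey.
(2) Points indexed by the `q`-subsets of `Fin N`, with distances depending only on the size of the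
intersection, form a Ramsey set.
(3) The chain theorem: a finite group acts transitively on a finite set `U`, `y` maps `U` to a
Euclidean space with invariant distances, and there is a chain of subgroups from the trivial group
to the whole group such that at each step every orbit of the larger subgroup is a union of at most
two orbits of the smaller one, or the larger subgroup is generated by the smaller one and an
element normalizing it. Then the image of `y` is Ramsey.
(4) Let `Γ` be a finite group with a homomorphism `ρ` to the symmetric group on five letters whose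
image contains the alternating group and whose kernel is soluble. If `Γ` acts on a set `X` of a
Euclidean space transitively by isometries and some `g` with `ρ g ≠ 1` fixes a point of `X`, then
`X` is Ramsey.
(5) For every `n`, all arrangements of `(a,…,a,b,b,b,c)` in `ℝ^(n+1)` form a Ramsey set.
(6) All arrangements of `(a,a,b,b,c,c)` in `ℝ^6` form a Ramsey set. -/
theorem result :
    (∀ {ι : Type} [Fintype ι] {N : ℕ} {X : Set (EuclideanSpace ℝ ι)}
      [MulAction (Equiv.Perm (Fin N)) X],
      (∀ (g : Equiv.Perm (Fin N)) (p q : X),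
        dist ((g • p : X) : EuclideanSpace ℝ ι) (g • q : X) = dist (p : EuclideanSpace ℝ ι) q) →
      ∀ x₀ : X, (∀ y : X, ∃ g : Equiv.Perm (Fin N), g • x₀ = y) → ∀ a b c : Fin N,
      (∀ g : Equiv.Perm (Fin N), g a = a → g b = b → g c = c → g • x₀ = x₀) →
      IsRamsey X) ∧
    (∀ (N q m : ℕ) (y : {A : Finset (Fin N) // A.card = q} → EuclideanSpace ℝ (Fin m)),
      (∀ A B A' B' : {A : Finset (Fin N) // A.card = q},
        (A.1 ∩ B.1).card = (A'.1 ∩ B'.1).card → dist (y A) (y B) = dist (y A') (y B')) →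
      IsRamsey (Set.range y)) ∧
    (∀ (G U : Type) [Group G] [Fintype G] [MulAction G U] [Fintype U]
        [MulAction.IsPretransitive G U] (m : ℕ) (y : U → EuclideanSpace ℝ (Fin m)),
      (∀ (g : G) (t t' : U), dist (y (g • t)) (y (g • t')) = dist (y t) (y t')) →
      ∀ (n : ℕ) (K : ℕ → Subgroup G), K 0 = ⊥ → K n = ⊤ →
      (∀ i < n, K i ≤ K (i + 1) ∧
        ((∀ t : U, ∃ s₁ s₂ : U, ∀ k ∈ K (i + 1), ∃ k' ∈ K i, k • t = k' • s₁ ∨ k • t = k' • s₂) ∨
         (∃ g ∈ K (i + 1), (∀ k ∈ K i, g⁻¹ * k * g ∈ K i) ∧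
            ∀ k ∈ K (i + 1), ∃ k' ∈ K i, ∃ a : ℕ, k = k' * (g ^ a)⁻¹))) →
      IsRamsey (Set.range y)) ∧
    (∀ {ι Γ : Type} [Fintype ι] [Group Γ] [Fintype Γ] (ρ : Γ →* Equiv.Perm (Fin 5)),
      alternatingGroup (Fin 5) ≤ ρ.range → Group.IsSolvable ρ.ker →
      ∀ (X : Set (EuclideanSpace ℝ ι)) [MulAction Γ X],
      (∀ (g : Γ) (a b : X),
        dist ((g • a : X) : EuclideanSpace ℝ ι) (g • b : X) = dist (a : EuclideanSpace ℝ ι) b) →
      (∀ a b : X, ∃ g : Γ, g • a = b) →
      (∃ (a : X) (g : Γ), ρ g ≠ 1 ∧ g • a = a) →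
      IsRamsey X) ∧
    (∀ (n : ℕ) (a b c : ℝ), IsRamsey (XFam n a b c)) ∧
    (∀ a b c : ℝ, IsRamsey (XA2B2C2 a b c)) :=
  ⟨fun hiso x₀ htr a b c hst => isRamsey_of_perm_orbit hiso x₀ htr a b c hst,
   fun N q m y hy => Chain.johnson_ramsey N q m y hy,
   fun _ _ _ _ _ _ _ _ y hy n K h0 hn hstep => Chain.chain_ramsey y hy n K h0 hn hstep,
   fun ρ hρ hker X _ h1 h2 h3 => Sol.isRamsey_of_nonfree ρ hρ hker X h1 h2 h3,
   isRamsey_XFam, isRamsey_XA2B2C2⟩

end Vale.Agent.Results.P058.AAA_union
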