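import Vale.Agent.Lib.P058.UnivRamsey
import Vale.Agent.Lib.P058.SubtransBridge

/-! # P058: subtransitive sets and rational spherical sets are Ramsey -/

namespace Vale.Agent.Results.P058.AAB_rational

open Vale.Agent.Lib.P058

/-- (1) Every subtransitive set is Ramsey. (2) Every finite set of points with rational coordinates
on a sphere (any real center and radius) is Ramsey. -/
theorem result :
    (∀ (ι : Type) [Fintype ι] (A : Set (EuclideanSpace ℝ ι)), IsSubtransitive A → IsRamsey A) ∧
    (∀ (m : ℕ) (X : Set (EuclideanSpace ℝ (Fin m))), X.Finite → (∀ x ∈ X, ∀ j, ∃ q : ℚ, x j = q) →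
      (∃ (z : EuclideanSpace ℝ (Fin m)) (r : ℝ), ∀ x ∈ X, dist x z = r) → IsRamsey X) :=
  ⟨fun _ _ _ hA => isRamsey_of_subtransitive hA,
    fun _ X hfin hrat hsph => Bridge.isRamsey_rational_spherical X hfin hrat hsph⟩

end Vale.Agent.Results.P058.AAB_rational
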