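import Vale.Agent.Lib.P058.ChainMain

/-! # P058: Johnson sets and chains of subgroups -/

namespace Vale.Agent.Results.P058.AA_johnson

open Vale.Agent.Lib.P058

/-- (1) Points indexed by the `q`-subsets of `Fin N`, with distances depending only on the size of
the intersection, form a Ramsey set. (2) The chain theorem: a finite group acts transitively on a
finite set `U`, `y` maps `U` to a Euclidean space with invariant distances, and there is a chain of
subgroups from the trivial group to the whole group such that at each step every orbit of the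
larger subgroup is a union of at most two orbits of the smaller one, or the larger subgroup is
generated by the smaller one and an element normalizing it. Then the image of `y` is Ramsey. -/
theorem result :
    (∀ (N q m : ℕ) (y : {A : Finset (Fin N) // A.card = q} → EuclideanSpace ℝ (Fin m)),
      (∀ A B A' B' : {A : Finset (Fin N) // A.card = q},
        (A.1 ∩ B.1).card = (A'.1 ∩ B'.1).card → dist (y A) (y B) = dist (y A') (y B')) →
      IsRamsey (Set.range y)) ∧
    (∀ (G U : Type) [Group G] [Fintype G] [MulAction G U] [Fintype U]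
        [MulAction.IsPretransitive G U] (m : ℕ) (y : U → EuclideanSpace ℝ (Fin m)),
      (∀ (g : G) (t t' : U), dist (y (g • t)) (y (g • t')) = dist (y t) (y t')) →
      ∀ (n : ℕ) (K : ℕ → Subgroup G), K 0 = ⊥ → K n = ⊤ →
      (∀ i < n, K i ≤ K (i + 1) ∧
        ((∀ t : U, ∃ s₁ s₂ : U, ∀ k ∈ K (i + 1), ∃ k' ∈ K i, k • t = k' • s₁ ∨ k • t = k' • s₂) ∨
         (∃ g ∈ K (i + 1), (∀ k ∈ K i, g⁻¹ * k * g ∈ K i) ∧
            ∀ k ∈ K (i + 1), ∃ k' ∈ K i, ∃ a : ℕ, k = k' * (g ^ a)⁻¹))) →
      IsRamsey (Set.range y)) :=
  ⟨fun N q m y hy => Chain.johnson_ramsey N q m y hy,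
   fun _ _ _ _ _ _ _ _ y hy n K h0 hn hstep => Chain.chain_ramsey y hy n K h0 hn hstep⟩

end Vale.Agent.Results.P058.AA_johnson
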