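import Vale.Agent.Lib.P058.ChainEx
import Vale.Agent.Lib.P058.X3Final

/-! # P058: chains of subgroups with two-orbit, abelian and symmetric sections -/

namespace Vale.Agent.Results.P058.AB_chain

open Vale.Agent.Lib.P058 Vale.Agent.Lib.P058.X3 Vale.Agent.Lib.P058.ChainEx

/-- Part 1 (chain theorem).  A finite group `Γ` acts transitively by isometries on a set `X` of a
Euclidean space, and `K 0 = 1 ≤ K 1 ≤ ... ≤ K n = Γ` is a chain of subgroups such that at each step
(a) every orbit of `K (i+1)` on `X` is the union of at most two orbits of `K i`, or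
(b) all commutators of elements of `K (i+1)` lie in `K i`, or
(c) there is a surjective homomorphism `π` from `K (i+1)` onto a symmetric group `Perm (Fin M)` with
kernel inside `K i`, and for every point `p` of `X` there are indices `a, b, c` such that every
permutation fixing `a, b, c` is the image under `π` of an element of `K (i+1)` fixing `p`.
Then `X` is Ramsey.

Part 2: if `Perm (Fin N)` acts transitively by isometries on `X` and some point `x₀` is fixed by
every permutation fixing the three indices `a, b, c`, then `X` is Ramsey.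

Part 3: for every `N` and all real `a,b,c,d`, the set of all vectors of `ℝ^N` with one coordinate
`b`, one coordinate `c`, one coordinate `d` in three different places and all other coordinates `a`
is Ramsey.

Part 4: the same with arbitrary signs: the vectors `x` of `ℝ^N` with `|x i| = |b|`, `|x j| = |c|`,
`|x k| = |d|` in three different places and `|x l| = |a|` elsewhere form a Ramsey set.

Part 5: if all rows of an `N × M` matrix `A` but three agree and all columns of `A` but three agree,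
then the matrices obtained from `A` by permuting rows and columns form a Ramsey set (in
`ℝ^(N × M)`). -/
theorem result :
    (∀ {ι Γ : Type} [Fintype ι] [Group Γ] [Finite Γ]
      {X : Set (EuclideanSpace ℝ ι)} [MulAction Γ X],
      (∀ (g : Γ) (p q : X),
        dist ((g • p : X) : EuclideanSpace ℝ ι) (g • q : X) = dist (p : EuclideanSpace ℝ ι) q) →
      (∀ p q : X, ∃ g : Γ, g • p = q) →
      ∀ (n : ℕ) (K : ℕ → Subgroup Γ), K 0 = ⊥ → K n = ⊤ →
      (∀ i < n, K i ≤ K (i + 1) ∧
        ((∀ p : X, ∃ s₁ s₂ : X, ∀ k ∈ K (i + 1), ∃ k' ∈ K i, k • p = k' • s₁ ∨ k • p = k' • s₂) ∨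
         (∀ a ∈ K (i + 1), ∀ b ∈ K (i + 1), a * b * a⁻¹ * b⁻¹ ∈ K i) ∨
         (∃ (M : ℕ) (π : K (i + 1) →* Equiv.Perm (Fin M)), Function.Surjective π ∧
            (∀ k : K (i + 1), π k = 1 → (k : Γ) ∈ K i) ∧
            ∀ p : X, ∃ a b c : Fin M, ∀ σ : Equiv.Perm (Fin M), σ a = a → σ b = b → σ c = c →
              ∃ k : K (i + 1), π k = σ ∧ (k : Γ) • p = p))) →
      IsRamsey X) ∧
    (∀ {ι : Type} [Fintype ι] {N : ℕ} {X : Set (EuclideanSpace ℝ ι)}
      [MulAction (Equiv.Perm (Fin N)) X],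
      (∀ (g : Equiv.Perm (Fin N)) (p q : X),
        dist ((g • p : X) : EuclideanSpace ℝ ι) (g • q : X) = dist (p : EuclideanSpace ℝ ι) q) →
      ∀ x₀ : X, (∀ y : X, ∃ g : Equiv.Perm (Fin N), g • x₀ = y) → ∀ a b c : Fin N,
      (∀ g : Equiv.Perm (Fin N), g a = a → g b = b → g c = c → g • x₀ = x₀) →
      IsRamsey X) ∧
    (∀ (N : ℕ) (a b c d : ℝ), IsRamsey (X3Set N a b c d)) ∧
    (∀ (N : ℕ) (a b c d : ℝ), IsRamsey (X3Signed N a b c d)) ∧
    (∀ {N M : ℕ} (A : Fin N → Fin M → ℝ) (r₁ r₂ r₃ : Fin N) (s₁ s₂ s₃ : Fin M),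
      (∀ i i', i ≠ r₁ → i ≠ r₂ → i ≠ r₃ → i' ≠ r₁ → i' ≠ r₂ → i' ≠ r₃ → ∀ j, A i j = A i' j) →
      (∀ j j', j ≠ s₁ → j ≠ s₂ → j ≠ s₃ → j' ≠ s₁ → j' ≠ s₂ → j' ≠ s₃ → ∀ i, A i j = A i j') →
      IsRamsey (MatOrbit A)) :=
  ⟨fun hiso htr n K h0 hn hstep => ChainS.chain_master hiso htr n K h0 hn hstep,
    fun hiso x₀ htr a b c hst => isRamsey_of_perm_orbit hiso x₀ htr a b c hst,
    fun N a b c d => isRamsey_X3Set N a b c d,
    fun N a b c d => isRamsey_X3Signed N a b c d,
    fun A r₁ r₂ r₃ s₁ s₂ s₃ hrow hcol => isRamsey_MatOrbit A r₁ r₂ r₃ s₁ s₂ s₃ hrow hcol⟩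

end Vale.Agent.Results.P058.AB_chain
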