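import Vale.Agent.Lib.P058.Final

namespace Vale.Agent.Results.P058.A_main

/-- A subset of a Euclidean space is transitive if the isometries of the space mapping the set
onto itself act transitively on it. -/
def IsTransitiveSet {N : ℕ} (Y : Set (EuclideanSpace ℝ (Fin N))) : Prop :=
  ∀ u ∈ Y, ∀ v ∈ Y, ∃ g : EuclideanSpace ℝ (Fin N) ≃ᵢ EuclideanSpace ℝ (Fin N),
    g '' Y = Y ∧ g u = v

/-- A subset of a Euclidean space is subtransitive if it is congruent to a subset of a finite
transitive set of some Euclidean space. -/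
def Subtransitive {m : ℕ} (X : Set (EuclideanSpace ℝ (Fin m))) : Prop :=
  ∃ (N : ℕ) (Y : Set (EuclideanSpace ℝ (Fin N))), Y.Finite ∧ IsTransitiveSet Y ∧
    ∃ f : EuclideanSpace ℝ (Fin m) → EuclideanSpace ℝ (Fin N), (∀ x ∈ X, f x ∈ Y) ∧
      ∀ x ∈ X, ∀ y ∈ X, dist (f x) (f y) = dist x y

/-- Every finite set of points with rational coordinates which lies on a sphere (with any real
center and radius) is subtransitive. -/
theorem result {m : ℕ} (X : Set (EuclideanSpace ℝ (Fin m))) (hfin : X.Finite)
    (hrat : ∀ x ∈ X, ∀ j, ∃ q : ℚ, x j = q)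
    (hsph : ∃ (z : EuclideanSpace ℝ (Fin m)) (r : ℝ), ∀ x ∈ X, dist x z = r) :
    Subtransitive X :=
  Vale.Agent.Lib.P058.rational_spherical_core X hfin hrat hsph

end Vale.Agent.Results.P058.A_main
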