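import Vale.Agent.Lib.P058.NonFree

/-! # P058: non-free transitive actions of groups mapping onto `A_5` or `S_5` -/

namespace Vale.Agent.Results.P058.A_nonfree

open Vale.Agent.Lib.P058

/-- Let `Γ` be a finite group with a homomorphism `ρ` to the symmetric group on five letters whose
image contains the alternating group and whose kernel is soluble. Let `Γ` act on a set `X` of a
Euclidean space, transitively and preserving distances, such that some `g` with `ρ g ≠ 1` fixes a
point of `X`. Then `X` is Ramsey. -/
theorem result {ι Γ : Type} [Fintype ι] [Group Γ] [Fintype Γ] (ρ : Γ →* Equiv.Perm (Fin 5))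
    (hρ : alternatingGroup (Fin 5) ≤ ρ.range) (hker : Group.IsSolvable ρ.ker)
    (X : Set (EuclideanSpace ℝ ι)) [MulAction Γ X]
    (hiso : ∀ (g : Γ) (a b : X),
      dist ((g • a : X) : EuclideanSpace ℝ ι) (g • b : X) = dist (a : EuclideanSpace ℝ ι) b)
    (htr : ∀ a b : X, ∃ g : Γ, g • a = b)
    (hstab : ∃ (a : X) (g : Γ), ρ g ≠ 1 ∧ g • a = a) : IsRamsey X :=
  Sol.isRamsey_of_nonfree ρ hρ hker X hiso htr hstab

end Vale.Agent.Results.P058.A_nonfree
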