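import Vale.Agent.Lib.P058.X3Final

/-! # P058: the arrangements of `(a,…,a,b,c,d)` are Ramsey, in every dimension -/

namespace Vale.Agent.Results.P058.B_allN

open Vale.Agent.Lib.P058 Vale.Agent.Lib.P058.X3

/-- For every `N` and all real `a,b,c,d`, the set of all vectors of `ℝ^N` with one coordinate `b`,
one coordinate `c`, one coordinate `d` in three different places and all other coordinates `a`
is Ramsey. -/
theorem result (N : ℕ) (a b c d : ℝ) : IsRamsey (X3Set N a b c d) :=
  isRamsey_X3Set N a b c d

end Vale.Agent.Results.P058.B_allN
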