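import Vale.Agent.Lib.P058.X3All

/-! # P058: orbits of symmetric groups whose point stabilisers contain `S_{N-3}` -/

namespace Vale.Agent.Results.P058.B_orbit3

open Vale.Agent.Lib.P058 Vale.Agent.Lib.P058.X3

/-- If the symmetric group `Perm (Fin N)` acts transitively by isometries on a set `X` of a
Euclidean space, and some point `x₀` of `X` is fixed by every permutation fixing the three indices
`a`, `b`, `c`, then `X` is Ramsey. -/
theorem result {ι : Type} [Fintype ι] {N : ℕ} {X : Set (EuclideanSpace ℝ ι)}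
    [MulAction (Equiv.Perm (Fin N)) X]
    (hiso : ∀ (g : Equiv.Perm (Fin N)) (p q : X),
      dist ((g • p : X) : EuclideanSpace ℝ ι) (g • q : X) = dist (p : EuclideanSpace ℝ ι) q)
    (x₀ : X) (htr : ∀ y : X, ∃ g : Equiv.Perm (Fin N), g • x₀ = y) (a b c : Fin N)
    (hst : ∀ g : Equiv.Perm (Fin N), g a = a → g b = b → g c = c → g • x₀ = x₀) :
    IsRamsey X :=
  isRamsey_of_perm_orbit hiso x₀ htr a b c hst

end Vale.Agent.Results.P058.B_orbit3
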