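import Vale.Agent.Lib.P058.Inst36

/-! # P058: the arrangements of `(a,a,a,b,c,d)` are Ramsey -/

namespace Vale.Agent.Results.P058.B_tower36

open Vale.Agent.Lib.P058

/-- All vectors of `ℝ^6` with three coordinates equal to `a` and the other three coordinates equal
to `b`, `c`, `d` in some order. -/
def X (a b c d : ℝ) : Set (EuclideanSpace ℝ (Fin 6)) :=
  {x | ∃ i j k : Fin 6, i ≠ j ∧ i ≠ k ∧ j ≠ k ∧ x i = b ∧ x j = c ∧ x k = d ∧
    ∀ l, l ≠ i → l ≠ j → l ≠ k → x l = a}

theorem result (a b c d : ℝ) : IsRamsey (X a b c d) := by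
  have hg : ∀ ω ω' : Fin 6, ∃! s : Fin 6, (Inst36.g ^ s.val) ω = ω' := by
    simp only [ExistsUnique]
    decide +kernel
  let lv : Fin Inst36.A → ℝ := fun l =>
    if l.val = 1 then b else if l.val = 2 then c else if l.val = 3 then d else a
  have l1 : lv 1 = b := if_pos rfl
  have l2 : lv 2 = c := by
    show (if ((2 : Fin Inst36.A) : ℕ) = 1 then b else if ((2 : Fin Inst36.A) : ℕ) = 2 then c else _) = c
    rw [if_neg (by decide), if_pos (by decide)]
  have l3 : lv 3 = d := by
    show (if ((3 : Fin Inst36.A) : ℕ) = 1 then b else if ((3 : Fin Inst36.A) : ℕ) = 2 then c else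
      if ((3 : Fin Inst36.A) : ℕ) = 3 then d else a) = d
    rw [if_neg (by decide), if_neg (by decide), if_pos (by decide)]
  have l0 : lv 0 = a := by
    show (if ((0 : Fin Inst36.A) : ℕ) = 1 then b else if ((0 : Fin Inst36.A) : ℕ) = 2 then c else
      if ((0 : Fin Inst36.A) : ℕ) = 3 then d else a) = a
    rw [if_neg (by decide), if_neg (by decide), if_neg (by decide)]
  have key := isRamsey_of_cert Inst36.act Inst36.g hg Inst36.col Inst36.col_act 0 Inst36.cert0 lv
  intro r hr
  obtain ⟨D, hD, h⟩ := key r hr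
  refine ⟨D, hD, fun c' => ?_⟩
  obtain ⟨f, k, hf, hk⟩ := h c'
  have hsub : X a b c d ⊆
      {x : EuclideanSpace ℝ (Fin 6) | ∃ t : Inst36.Tok, ∀ ω, x ω = lv (Inst36.col t ω)} := by
    rintro x ⟨i, j, m, hij, him, hjm, hi, hj, hm, hl⟩
    refine ⟨⟨(i, j, m), hij, him, hjm⟩, fun ω => ?_⟩
    have hc : Inst36.col ⟨(i, j, m), hij, him, hjm⟩ ω =
        if i = ω then 1 else if j = ω then 2 else if m = ω then 3 else 0 := rfl
    rw [hc]
    by_cases h1 : i = ω
    · subst h1
      rw [if_pos rfl, l1, hi]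
    · rw [if_neg h1]
      by_cases h2 : j = ω
      · subst h2
        rw [if_pos rfl, l2, hj]
      · rw [if_neg h2]
        by_cases h3 : m = ω
        · subst h3
          rw [if_pos rfl, l3, hm]
        · rw [if_neg h3, l0]
          exact hl ω (Ne.symm h1) (Ne.symm h2) (Ne.symm h3)
  exact ⟨f, k, fun x hx y hy => hf x (hsub hx) y (hsub hy), fun x hx => hk x (hsub hx)⟩

end Vale.Agent.Results.P058.B_tower36

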